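import Vale.Agent.P308.Count

namespace Vale.Agent.P308

open SimpleGraph

variable {V : Type*} {G : SimpleGraph V}

/-- an augmenting sequence for `M` with `t` matching edges between two uncovered vertices -/
def AugH (G : SimpleGraph V) (M : G.Subgraph) (t : ℕ) (p : ℕ → V) : Prop :=
  p 0 ∉ M.verts ∧ p (2*t+1) ∉ M.verts ∧ AugPath G M (p 0) (p (2*t+1)) t p

/-- the matching obtained by switching `M` along the path `p` (general number of holes) -/
def augment2 (M : G.Subgraph) (t : ℕ) (p : ℕ → V)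
    (h : ∀ i, i ≤ t → G.Adj (p (2*i)) (p (2*i+1))) : G.Subgraph where
  verts := M.verts ∪ {x | ∃ j, j ≤ 2*t+1 ∧ p j = x}
  Adj a b := (M.Adj a b ∧ (∀ j, j ≤ 2*t+1 → p j ≠ a) ∧ (∀ j, j ≤ 2*t+1 → p j ≠ b)) ∨
    ∃ i, i ≤ t ∧ ((a = p (2*i) ∧ b = p (2*i+1)) ∨ (a = p (2*i+1) ∧ b = p (2*i)))
  adj_sub := by
    rintro a b (⟨h1, -, -⟩ | ⟨i, hi, (⟨rfl, rfl⟩ | ⟨rfl, rfl⟩)⟩)
    · exact M.adj_sub h1
    · exact h i hi
    · exact (h i hi).symm
  edge_vert := by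
    rintro a b (⟨h1, -, -⟩ | ⟨i, hi, (⟨rfl, rfl⟩ | ⟨rfl, rfl⟩)⟩)
    · exact Or.inl (M.edge_vert h1)
    · exact Or.inr ⟨2*i, by omega, rfl⟩
    · exact Or.inr ⟨2*i+1, by omega, rfl⟩
  symm := ⟨by
    rintro a b (⟨h1, h2, h3⟩ | ⟨i, hi, (⟨rfl, rfl⟩ | ⟨rfl, rfl⟩)⟩)
    · exact Or.inl ⟨h1.symm, h3, h2⟩
    · exact Or.inr ⟨i, hi, Or.inr ⟨rfl, rfl⟩⟩
    · exact Or.inr ⟨i, hi, Or.inl ⟨rfl, rfl⟩⟩⟩

/-- inner vertices of an augmenting sequence are covered -/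
theorem AugH.inner_mem {M : G.Subgraph} {t : ℕ} {p : ℕ → V} (h : AugH G M t p) {j : ℕ}
    (h0 : 0 < j) (hj : j < 2*t+1) : p j ∈ M.verts := by
  rcases Nat.mod_two_eq_zero_or_one j with hpar | hpar
  · obtain ⟨i, rfl⟩ : ∃ i, j = 2*i+2 := ⟨(j-2)/2, by omega⟩
    exact M.edge_vert (h.2.2.mat i (by omega)).symm
  · obtain ⟨i, rfl⟩ : ∃ i, j = 2*i+1 := ⟨(j-1)/2, by omega⟩
    exact M.edge_vert (h.2.2.mat i (by omega))

/-- the vertex set of the augmented matching -/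
theorem AugH.verts_augment2 {M : G.Subgraph} {t : ℕ} {p : ℕ → V} (h : AugH G M t p) :
    (augment2 M t p h.2.2.adj).verts = M.verts ∪ {p 0, p (2*t+1)} := by
  ext x
  simp only [augment2, Set.mem_union, Set.mem_ofPred_eq, Set.mem_insert_iff,
    Set.mem_singleton_iff]
  constructor
  · rintro (hx | ⟨j, hj, rfl⟩)
    · exact Or.inl hx
    · rcases Nat.eq_zero_or_pos j with h0 | h0
      · subst h0; exact Or.inr (Or.inl rfl)
      · rcases Nat.lt_or_ge j (2*t+1) with h1 | h1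
        · exact Or.inl (h.inner_mem h0 h1)
        · have : j = 2*t+1 := by omega
          subst this; exact Or.inr (Or.inr rfl)
  · rintro (hx | rfl | rfl)
    · exact Or.inl hx
    · exact Or.inr ⟨0, by omega, rfl⟩
    · exact Or.inr ⟨2*t+1, le_rfl, rfl⟩

/-- a vertex matched (in `M`) to a vertex off the path is off the path -/
theorem AugH.off_of_adj {M : G.Subgraph} {t : ℕ} {p : ℕ → V}
    (h : AugH G M t p) (hM : M.IsMatching) {a b : V} (hab : M.Adj a b)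
    (ha : ∀ j, j ≤ 2*t+1 → p j ≠ a) : ∀ j, j ≤ 2*t+1 → p j ≠ b := by
  intro j hj hjb
  subst hjb
  have hmem : p j ∈ M.verts := M.edge_vert hab.symm
  have hj0 : j ≠ 0 := by rintro rfl; exact h.1 hmem
  have hjt : j ≠ 2*t+1 := by rintro rfl; exact h.2.1 hmem
  rcases Nat.mod_two_eq_zero_or_one j with hpar | hpar
  · obtain ⟨i, rfl⟩ : ∃ i, j = 2*i+2 := ⟨(j-2)/2, by omega⟩
    have h1 := h.2.2.mat i (by omega)
    have := hM.eq_of_adj_right h1 hab
    exact ha (2*i+1) (by omega) this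
  · obtain ⟨i, rfl⟩ : ∃ i, j = 2*i+1 := ⟨(j-1)/2, by omega⟩
    have h1 := h.2.2.mat i (by omega)
    have := hM.eq_of_adj_left h1 hab.symm
    exact ha (2*i+2) (by omega) this

theorem AugH.augment2_isMatching {M : G.Subgraph} {t : ℕ} {p : ℕ → V}
    (h : AugH G M t p) (hM : M.IsMatching) : (augment2 M t p h.2.2.adj).IsMatching := by
  classical
  intro a hav
  by_cases ha : ∃ j, j ≤ 2*t+1 ∧ p j = a
  · obtain ⟨j, hj, rfl⟩ := ha
    rcases Nat.mod_two_eq_zero_or_one j with hpar | hpar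
    · obtain ⟨i, rfl⟩ : ∃ i, j = 2*i := ⟨j/2, by omega⟩
      refine ⟨p (2*i+1), Or.inr ⟨i, by omega, Or.inl ⟨rfl, rfl⟩⟩, ?_⟩
      rintro b (⟨-, h2, -⟩ | ⟨i', hi', (⟨e1, rfl⟩ | ⟨e1, rfl⟩)⟩)
      · exact absurd rfl (h2 _ hj)
      · have := h.2.2.inj _ _ hj (by omega) e1
        have : i = i' := by omega
        rw [this]
      · have := h.2.2.inj _ _ hj (by omega) e1
        omega
    · obtain ⟨i, rfl⟩ : ∃ i, j = 2*i+1 := ⟨j/2, by omega⟩
      refine ⟨p (2*i), Or.inr ⟨i, by omega, Or.inr ⟨rfl, rfl⟩⟩, ?_⟩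
      rintro b (⟨-, h2, -⟩ | ⟨i', hi', (⟨e1, rfl⟩ | ⟨e1, rfl⟩)⟩)
      · exact absurd rfl (h2 _ hj)
      · have := h.2.2.inj _ _ hj (by omega) e1
        omega
      · have := h.2.2.inj _ _ hj (by omega) e1
        have : i = i' := by omega
        rw [this]
  · have haM : a ∈ M.verts := by
      rcases hav with hx | hx
      · exact hx
      · exact absurd hx ha
    push Not at ha
    obtain ⟨b, hb, hbu⟩ := hM haM
    refine ⟨b, Or.inl ⟨hb, ha, h.off_of_adj hM hb ha⟩, ?_⟩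
    rintro c (⟨h1, -, -⟩ | ⟨i', hi', (⟨e1, -⟩ | ⟨e1, -⟩)⟩)
    · exact hbu c h1
    · exact absurd e1.symm (ha _ (by omega))
    · exact absurd e1.symm (ha _ (by omega))

/-- two holes disappear -/
theorem AugH.holes_augment2 [Finite V] {M : G.Subgraph} {t : ℕ} {p : ℕ → V}
    (h : AugH G M t p) {n : ℕ} (hn : (M.verts)ᶜ.ncard = 2*(n+1)) :
    ((augment2 M t p h.2.2.adj).verts)ᶜ.ncard = 2*n := by
  rw [h.verts_augment2]
  have hne : p 0 ≠ p (2*t+1) := by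
    intro e
    have := h.2.2.inj 0 (2*t+1) (by omega) le_rfl e
    omega
  have hset : (M.verts ∪ {p 0, p (2*t+1)})ᶜ = ((M.verts)ᶜ \ {p 0}) \ {p (2*t+1)} := by
    ext x
    simp only [Set.mem_compl_iff, Set.mem_union, Set.mem_insert_iff, Set.mem_singleton_iff,
      Set.mem_sdiff, not_or]
    tauto
  rw [hset]
  have h1 : ((M.verts)ᶜ \ {p 0}).ncard = (M.verts)ᶜ.ncard - 1 :=
    Set.ncard_sdiff_singleton_of_mem h.1
  have h2 : (((M.verts)ᶜ \ {p 0}) \ {p (2*t+1)}).ncard = ((M.verts)ᶜ \ {p 0}).ncard - 1 :=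
    Set.ncard_sdiff_singleton_of_mem ⟨h.2.1, fun e => hne e.symm⟩
  rw [h2, h1, hn]
  omega

/-- `M` can be recovered from the augmented matching and the path: adjacency -/
theorem AugH.adj_iff {M : G.Subgraph} {t : ℕ} {p : ℕ → V}
    (h : AugH G M t p) (hM : M.IsMatching) (a b : V) :
    M.Adj a b ↔ Rec (augment2 M t p h.2.2.adj) t p a b := by
  classical
  unfold Rec
  constructor
  · intro hab
    by_cases ha : ∃ j, j ≤ 2*t+1 ∧ p j = a
    · right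
      obtain ⟨j, hj, rfl⟩ := ha
      have hmem : p j ∈ M.verts := M.edge_vert hab
      have hj0 : j ≠ 0 := by rintro rfl; exact h.1 hmem
      have hjt : j ≠ 2*t+1 := by rintro rfl; exact h.2.1 hmem
      rcases Nat.mod_two_eq_zero_or_one j with hpar | hpar
      · obtain ⟨i, rfl⟩ : ∃ i, j = 2*i+2 := ⟨(j-2)/2, by omega⟩
        have h1 := h.2.2.mat i (by omega)
        exact ⟨i, by omega, Or.inr ⟨rfl, hM.eq_of_adj_left hab h1.symm⟩⟩
      · obtain ⟨i, rfl⟩ : ∃ i, j = 2*i+1 := ⟨(j-1)/2, by omega⟩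
        have h1 := h.2.2.mat i (by omega)
        exact ⟨i, by omega, Or.inl ⟨rfl, hM.eq_of_adj_left hab h1⟩⟩
    · push Not at ha
      have hb := h.off_of_adj hM hab ha
      exact Or.inl ⟨Or.inl ⟨hab, ha, hb⟩, ha, hb⟩
  · rintro (⟨(⟨h1, -, -⟩ | ⟨i, hi, (⟨e1, -⟩ | ⟨e1, -⟩)⟩), h2, -⟩ | ⟨i, hi, (⟨rfl, rfl⟩ | ⟨rfl, rfl⟩)⟩)
    · exact h1
    · exact absurd e1.symm (h2 _ (by omega))
    · exact absurd e1.symm (h2 _ (by omega))
    · exact h.2.2.mat i hi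
    · exact (h.2.2.mat i hi).symm

/-- `M` can be recovered from the augmented matching and the path: vertices -/
theorem AugH.mem_verts_iff {M : G.Subgraph} {t : ℕ} {p : ℕ → V}
    (h : AugH G M t p) (w : V) :
    w ∈ M.verts ↔ (w ∈ (augment2 M t p h.2.2.adj).verts ∧ w ≠ p 0 ∧ w ≠ p (2*t+1)) := by
  rw [h.verts_augment2]
  simp only [Set.mem_union, Set.mem_insert_iff, Set.mem_singleton_iff]
  constructor
  · intro hw
    refine ⟨Or.inl hw, ?_, ?_⟩
    · rintro rfl; exact h.1 hw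
    · rintro rfl; exact h.2.1 hw
  · rintro ⟨hw | hw | hw, h1, h2⟩
    · exact hw
    · exact absurd hw h1
    · exact absurd hw h2

end Vale.Agent.P308
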