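import Mathlib

namespace Vale.Agent.P308

open Finset

/-- `∑_{i=1}^{n} (T - log₂ i) ≤ 2^(T+1)` -/
theorem sum_sub_log_le (T n : ℕ) : ∑ i ∈ range n, (T - Nat.log 2 (i+1)) ≤ 2^(T+1) := by
  induction T with
  | zero => simp
  | succ T ih =>
    have h1 : ∀ i ∈ range n, (T + 1 - Nat.log 2 (i+1))
        = (T - Nat.log 2 (i+1)) + (if Nat.log 2 (i+1) ≤ T then 1 else 0) := by
      intro i _
      split_ifs with h <;> omega
    rw [Finset.sum_congr rfl h1, Finset.sum_add_distrib]
    have h2 : ∑ i ∈ range n, (if Nat.log 2 (i+1) ≤ T then 1 else 0) ≤ 2^(T+1) := by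
      rw [← Finset.card_filter]
      have hsub : (range n).filter (fun i => Nat.log 2 (i+1) ≤ T) ⊆ range (2^(T+1)) := by
        intro i hi
        have hi' := (Finset.mem_filter.1 hi).2
        have h3 : i + 1 < 2 ^ (Nat.log 2 (i+1) + 1) := Nat.lt_pow_succ_log_self (by norm_num) _
        have h4 : 2 ^ (Nat.log 2 (i+1) + 1) ≤ 2 ^ (T + 1) :=
          Nat.pow_le_pow_right (by norm_num) (by omega)
        exact Finset.mem_range.2 (by omega)
      calc ((range n).filter (fun i => Nat.log 2 (i+1) ≤ T)).card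
          ≤ (range (2^(T+1))).card := Finset.card_le_card hsub
        _ = 2^(T+1) := Finset.card_range _
    have h5 : 2 ^ (T + 1 + 1) = 2 ^ (T + 1) + 2 ^ (T + 1) := by ring
    omega

/-- the telescoping product -/
theorem chain (f : ℕ → ℕ) (k k' N d T n : ℕ) (hk : 0 < k) (hk' : 0 < k')
    (hstep : ∀ h, h < n → f (h+1) * (k^(T - Nat.log 2 (h+1)) * k') ≤
      2 * (N * d^(T - Nat.log 2 (h+1)) * f h))
    (hn : 1 ≤ f n) (hdk : d ≤ 512 * k) (hNd : 2 * N * d ≤ 2^18 * k')
    (hT : 9 * 2^(T+1) ≤ 2 * n) :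
    d^n ≤ 2^(20*n) * f 0 := by
  have key : ∀ h, h ≤ n → f h * d^h
      ≤ 2^(18*h) * 512^(∑ i ∈ range h, (T - Nat.log 2 (i+1))) * f 0 := by
    intro h
    induction h with
    | zero => intro _; simp
    | succ h ih =>
      intro hh
      have ih' := ih (by omega)
      have hs := hstep h (by omega)
      set m := T - Nat.log 2 (h+1) with hm
      set S := ∑ i ∈ range h, (T - Nat.log 2 (i+1)) with hS
      rw [Finset.sum_range_succ, ← hS, ← hm]
      have hpos : 0 < k^m * k' := Nat.mul_pos (Nat.pow_pos hk) hk'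
      apply Nat.le_of_mul_le_mul_right _ hpos
      have hdm : d^m ≤ (512 * k)^m := Nat.pow_le_pow_left hdk m
      calc f (h+1) * d^(h+1) * (k^m * k')
          = (f (h+1) * (k^m * k')) * d^(h+1) := by ring
        _ ≤ (2 * (N * d^m * f h)) * d^(h+1) := Nat.mul_le_mul_right _ hs
        _ = (2 * N * d) * d^m * (f h * d^h) := by ring
        _ ≤ (2^18 * k') * (512 * k)^m * (2^(18*h) * 512^S * f 0) :=
            Nat.mul_le_mul (Nat.mul_le_mul hNd hdm) ih'
        _ = 2^(18*(h+1)) * 512^(S + m) * f 0 * (k^m * k') := by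
            rw [mul_pow, pow_add, Nat.mul_add 18 h 1, pow_add]
            ring
  have h1 := key n le_rfl
  have h2 := sum_sub_log_le T n
  set S := ∑ i ∈ range n, (T - Nat.log 2 (i+1)) with hS
  have h3 : (512 : ℕ)^S ≤ 2^(2*n) := by
    have : (512 : ℕ) = 2^9 := by norm_num
    rw [this, ← pow_mul]
    exact Nat.pow_le_pow_right (by norm_num) (by omega)
  calc d^n = 1 * d^n := (one_mul _).symm
    _ ≤ f n * d^n := Nat.mul_le_mul_right _ hn
    _ ≤ 2^(18*n) * 512^S * f 0 := h1
    _ ≤ 2^(18*n) * 2^(2*n) * f 0 :=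
        Nat.mul_le_mul_right _ (Nat.mul_le_mul_left _ h3)
    _ = 2^(20*n) * f 0 := by
        rw [← pow_add]
        congr 2
        ring

end Vale.Agent.P308
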