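import Vale.Agent.P308.ColourCount

namespace Vale.Agent.P308

open Finset

variable {V : Type*}

/-- `Opn2 m ω c q`: as `Opn`, but the innermost dart of the sequence `q 0, ..., q (2m+1)` is tested
against a separate colouring `c` with `k'` colours; the `m` outer darts are tested against
`ω 0, ..., ω (m-1)` (with `k` colours). -/
def Opn2 {k k' : ℕ} [NeZero k] [NeZero k'] :
    (m : ℕ) → (Fin m → Col V k) → Col V k' → (ℕ → V) → Prop
  | 0, _, c, q => c (q 1) (q 0) = 0
  | (m+1), ω, c, q => ω 0 (q 1) (q 0) = 0 ∧ Opn2 m (Fin.tail ω) c (fun j => q (2*m+3-j))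

/-- openness only depends on the first `2m+2` terms of the sequence -/
theorem Opn2_congr {k k' : ℕ} [NeZero k] [NeZero k'] (m : ℕ) (ω : Fin m → Col V k) (c : Col V k')
    {q q' : ℕ → V} (h : ∀ j, j ≤ 2*m+1 → q j = q' j) (ho : Opn2 m ω c q) : Opn2 m ω c q' := by
  induction m generalizing q q' with
  | zero =>
    simp only [Opn2] at ho ⊢
    rw [← h 0 (by omega), ← h 1 (by omega)]; exact ho
  | succ m ih =>
    simp only [Opn2] at ho ⊢
    refine ⟨?_, ih (Fin.tail ω) ?_ ho.2⟩
    · rw [← h 0 (by omega), ← h 1 (by omega)]; exact ho.1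
    · intro j hj
      exact h _ (by omega)

variable [Fintype V] [DecidableEq V]

/-- a fixed sequence is open for exactly a fraction `1 / (k^m k')` of the colouring vectors -/
theorem card_opn2 (k k' : ℕ) [NeZero k] [NeZero k'] (m : ℕ) (q : ℕ → V) :
    Set.ncard {p : (Fin m → Col V k) × Col V k' | Opn2 m p.1 p.2 q} * (k^m * k') =
      (Fintype.card (Col V k))^m * Fintype.card (Col V k') := by
  classical
  induction m generalizing q with
  | zero =>
    have h2 := card_dart_open k' (q 1) (q 0)
    have hset : {p : (Fin 0 → Col V k) × Col V k' | Opn2 0 p.1 p.2 q} =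
        (Set.univ : Set (Fin 0 → Col V k)) ×ˢ {c : Col V k' | c (q 1) (q 0) = 0} := by
      ext p
      simp [Opn2]
    have hone : Nat.card (Fin 0 → Col V k) = 1 := by
      rw [Nat.card_eq_fintype_card]
      exact Fintype.card_unique
    rw [hset, Set.ncard_prod, Set.ncard_univ, hone, one_mul, pow_zero, one_mul, pow_zero, one_mul]
    exact h2
  | succ m ih =>
    set S1 : Set (Col V k) := {c | c (q 1) (q 0) = 0} with hS1
    set S2 : Set ((Fin m → Col V k) × Col V k') :=
      {p | Opn2 m p.1 p.2 (fun j => q (2*m+3-j))} with hS2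
    set Ψ : Col V k × ((Fin m → Col V k) × Col V k') → ((Fin (m+1) → Col V k) × Col V k') :=
      fun p => (Fin.cons p.1 p.2.1, p.2.2) with hΨ
    have hinj : Function.Injective Ψ := by
      rintro ⟨c, ω, e⟩ ⟨c', ω', e'⟩ hcc
      simp only [hΨ, Prod.mk.injEq] at hcc
      have := Fin.cons_injective2 hcc.1
      rw [this.1, this.2, hcc.2]
    have hset : {p : (Fin (m+1) → Col V k) × Col V k' | Opn2 (m+1) p.1 p.2 q} =
        Ψ '' (S1 ×ˢ S2) := by
      ext p
      simp only [Set.mem_ofPred_eq, Set.mem_image, Set.mem_prod, Opn2]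
      constructor
      · rintro ⟨h1, h2⟩
        refine ⟨(p.1 0, Fin.tail p.1, p.2), ⟨h1, h2⟩, ?_⟩
        simp only [hΨ, Fin.cons_self_tail]
      · rintro ⟨⟨c, ω', e⟩, ⟨h1, h2⟩, rfl⟩
        refine ⟨?_, ?_⟩
        · have h1' : c (q 1) (q 0) = 0 := h1
          simpa [hΨ] using h1'
        · have h2' : Opn2 m ω' e (fun j => q (2*m+3-j)) := h2
          simpa [hΨ, Fin.tail_cons] using h2'
    rw [hset, Set.ncard_image_of_injective _ hinj, Set.ncard_prod]
    have h1 := card_dart_open k (q 1) (q 0)
    have h2 := ih (fun j => q (2*m+3-j))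
    calc S1.ncard * S2.ncard * (k^(m+1) * k')
        = (S1.ncard * k) * (S2.ncard * (k^m * k')) := by ring
      _ = (Fintype.card (Col V k))^(m+1) * Fintype.card (Col V k') := by
          rw [h1, h2]; ring

/-- First moment bound. -/
theorem first_moment2 (k k' : ℕ) [NeZero k] [NeZero k'] (m : ℕ) (P : (ℕ → V) → Prop) :
    Set.ncard {p : (Fin m → Col V k) × Col V k' |
        ∃ q : Fin (2*m+2) → V, P (unf m q) ∧ Opn2 m p.1 p.2 (unf m q)} * (k^m * k') ≤
      Set.ncard {q : Fin (2*m+2) → V | P (unf m q)} *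
        ((Fintype.card (Col V k))^m * Fintype.card (Col V k')) := by
  classical
  set Q : Finset (Fin (2*m+2) → V) := Finset.univ.filter (fun q => P (unf m q)) with hQ
  have hQs : {q : Fin (2*m+2) → V | P (unf m q)} = ↑Q := by
    ext q
    simp [hQ]
  have hset : {p : (Fin m → Col V k) × Col V k' |
        ∃ q : Fin (2*m+2) → V, P (unf m q) ∧ Opn2 m p.1 p.2 (unf m q)} =
      ↑(Q.biUnion (fun q => Finset.univ.filter (fun p : (Fin m → Col V k) × Col V k' =>
        Opn2 m p.1 p.2 (unf m q)))) := by
    ext p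
    simp [hQ]
  have hone : ∀ q : Fin (2*m+2) → V,
      (Finset.univ.filter (fun p : (Fin m → Col V k) × Col V k' =>
        Opn2 m p.1 p.2 (unf m q))).card * (k^m * k')
        = (Fintype.card (Col V k))^m * Fintype.card (Col V k') := by
    intro q
    rw [← card_opn2 k k' m (unf m q), ← Set.ncard_coe_finset]
    congr 2
    ext p
    simp
  rw [hset, hQs, Set.ncard_coe_finset, Set.ncard_coe_finset]
  calc (Q.biUnion (fun q => Finset.univ.filter (fun p : (Fin m → Col V k) × Col V k' =>
        Opn2 m p.1 p.2 (unf m q)))).card * (k^m * k')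
      ≤ (∑ q ∈ Q, (Finset.univ.filter (fun p : (Fin m → Col V k) × Col V k' =>
        Opn2 m p.1 p.2 (unf m q))).card) * (k^m * k') :=
        Nat.mul_le_mul_right _ Finset.card_biUnion_le
    _ = ∑ q ∈ Q, ((Fintype.card (Col V k))^m * Fintype.card (Col V k')) := by
        rw [Finset.sum_mul]
        exact Finset.sum_congr rfl (fun q _ => hone q)
    _ = Q.card * ((Fintype.card (Col V k))^m * Fintype.card (Col V k')) := by
        rw [Finset.sum_const, smul_eq_mul]

end Vale.Agent.P308
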