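import Vale.Agent.P308.Explore
import Vale.Agent.P308.LP.Opn2

namespace Vale.Agent.P308

open Finset

variable {V : Type*} [Fintype V] [DecidableEq V]

omit [Fintype V] [DecidableEq V] in
theorem ncard_cons2 {α β : Type*} [Fintype α] [Fintype β] (m : ℕ)
    (F : (Fin (m+1) → α) × β → Prop) :
    Set.ncard {p : (Fin (m+1) → α) × β | F p} =
      ∑ c : α, Set.ncard {p' : (Fin m → α) × β | F (Fin.cons c p'.1, p'.2)} := by
  classical
  let e : (α × ((Fin m → α) × β)) ≃ ((Fin (m+1) → α) × β) :=
    { toFun := fun x => (Fin.cons x.1 x.2.1, x.2.2)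
      invFun := fun p => (p.1 0, Fin.tail p.1, p.2)
      left_inv := by
        rintro ⟨c, ω, b⟩
        simp [Fin.tail_cons]
      right_inv := by
        rintro ⟨ω, b⟩
        simp [Fin.cons_self_tail] }
  rw [ncard_eq_sum_ite, ← e.sum_comp, Fintype.sum_prod_type]
  apply Finset.sum_congr rfl
  intro c _
  rw [ncard_eq_sum_ite]
  rfl

omit [Fintype V] [DecidableEq V] in
theorem ncard_le_card_pow2 {α β : Type*} [Fintype α] [Fintype β] (m : ℕ)
    (S : Set ((Fin m → α) × β)) :
    (S.ncard : ℝ) ≤ (Fintype.card α : ℝ)^m * (Fintype.card β : ℝ) := by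
  have h1 : S.ncard ≤ (Set.univ : Set ((Fin m → α) × β)).ncard :=
    Set.ncard_le_ncard (Set.subset_univ _)
  rw [Set.ncard_univ, Nat.card_eq_fintype_card, Fintype.card_prod, Fintype.card_fun,
    Fintype.card_fin] at h1
  exact_mod_cast h1

/-- The exploration bound with a separate number `k'` of colours for the joining dart. -/
theorem explore2 (G : SimpleGraph V) [DecidableRel G.Adj] (μ : V → V) (hμ : Function.Involutive μ)
    (k k' : ℕ) [NeZero k] [NeZero k'] (δ T : ℕ) (hδ : 128 * k ≤ δ) (hmin : ∀ x, δ ≤ G.degree x)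
    (hgrow : ∀ L Z : Finset V, 2 * L.card ≤ 2^T → Z.card ≤ 28 * L.card →
      4 * (G.interedges L Z).card ≤ 3 * δ * L.card)
    (hjoin : ∀ A B : Finset V, 2^T ≤ 2 * A.card → 2^T ≤ B.card →
      2 * k' ≤ (G.interedges A B).card) :
    ∀ (m : ℕ) (A B W : Finset V), Valid μ A B W → 1 ≤ A.card → A.card ≤ B.card →
      B.card ≤ 2 * A.card → W.card ≤ 4 * B.card → B.card * 2^m = 2^T →
      (Set.ncard {p : (Fin m → Col V k) × Col V k' |
          ¬ ∃ q, Conn G μ A B W m q ∧ Opn2 m p.1 p.2 q} : ℝ) ≤
        (1/4 + (1/2)^(4*A.card) + 2 * (1/2)^(4*B.card)) *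
          ((Fintype.card (Col V k) : ℝ)^m * (Fintype.card (Col V k') : ℝ)) := by
  intro m
  induction m with
  | zero =>
    intro A B W hv hA hAB hBA hW hT
    have hj := join_bound G k' A B (hjoin A B (by omega) (by omega))
    have hle : Set.ncard {p : (Fin 0 → Col V k) × Col V k' |
          ¬ ∃ q, Conn G μ A B W 0 q ∧ Opn2 0 p.1 p.2 q} ≤
        Set.ncard {c : Col V k' | ¬ ∃ x ∈ A, ∃ y ∈ B, G.Adj x y ∧ c y x = 0} := by
      apply Set.ncard_le_ncard_of_injOn (fun p => p.2)
      · intro p hp
        simp only [Set.mem_ofPred_eq] at hp ⊢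
        rintro ⟨x, hx, y, hy, hxy, hc⟩
        apply hp
        refine ⟨fun j => if j = 0 then x else y, ⟨?_, ?_, ?_, ?_, ?_, ?_⟩, ?_⟩
        · simpa using hx
        · simpa using hy
        · intro i j hi hj hij
          have hne : x ≠ y := G.ne_of_adj hxy
          by_cases i0 : i = 0 <;> by_cases j0 : j = 0
          · omega
          · simp only [i0, j0, if_true, if_false] at hij
            exact absurd hij hne
          · simp only [i0, j0, if_true, if_false] at hij
            exact absurd hij.symm hne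
          · omega
        · intro i hi
          have : i = 0 := by omega
          subst this
          simpa using hxy
        · intro i hi
          omega
        · intro j h0 hj
          omega
        · simpa [Opn2] using hc
      · rintro ⟨ω, c⟩ _ ⟨ω', c'⟩ _ h
        have h1 : ω = ω' := Subsingleton.elim _ _
        have h2 : c = c' := h
        rw [h1, h2]
    have hK : (0:ℝ) ≤ (Fintype.card (Col V k') : ℝ) := by positivity
    have h1 : (0:ℝ) ≤ (1/2)^(4*A.card) := by positivity
    have h2 : (0:ℝ) ≤ (1/2)^(4*B.card) := by positivity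
    have hle' : (Set.ncard {p : (Fin 0 → Col V k) × Col V k' |
          ¬ ∃ q, Conn G μ A B W 0 q ∧ Opn2 0 p.1 p.2 q} : ℝ) ≤
        (Set.ncard {c : Col V k' | ¬ ∃ x ∈ A, ∃ y ∈ B, G.Adj x y ∧ c y x = 0} : ℝ) := by
      exact_mod_cast hle
    rw [pow_zero, one_mul]
    nlinarith
  | succ m ih =>
    intro A B W hv hA hAB hBA hW hT
    classical
    set K : ℝ := (Fintype.card (Col V k) : ℝ) with hKdef
    set K' : ℝ := (Fintype.card (Col V k') : ℝ) with hK'def
    have hK : (0:ℝ) ≤ K := by positivity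
    have hK' : (0:ℝ) ≤ K' := by positivity
    set a := A.card with ha
    set b := B.card with hb
    have hTb : 2 * b ≤ 2^T := by
      have : 1 ≤ 2^m := Nat.one_le_two_pow
      rw [← hT, pow_succ]
      nlinarith
    have hg := growth G k δ a hδ A W ha.symm (by omega) (fun x _ => hmin x)
      (fun Z hZ => hgrow A Z (by omega) hZ)
    set Bad : Set (Col V k) := {c : Col V k |
        Set.ncard {y : V | y ∉ W ∧ ∃ x ∈ A, G.Adj x y ∧ c y x = 0} < 4 * a} with hBad
    set g' : ℝ := 1/4 + (1/2)^(4*b) + 2 * (1/2)^(4*(2*b)) with hg'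
    have hg'0 : 0 ≤ g' := by positivity
    have hterm : ∀ c : Col V k,
        (Set.ncard {p' : (Fin m → Col V k) × Col V k' | ¬ ∃ q, Conn G μ A B W (m+1) q ∧
          Opn2 (m+1) (Fin.cons c p'.1 : Fin (m+1) → Col V k) p'.2 q} : ℝ) ≤
        (if c ∈ Bad then 1 else 0) * (K^m * K') + g' * (K^m * K') := by
      intro c
      by_cases hc : c ∈ Bad
      · rw [if_pos hc, one_mul]
        have := ncard_le_card_pow2 m {p' : (Fin m → Col V k) × Col V k' |
          ¬ ∃ q, Conn G μ A B W (m+1) q ∧
            Opn2 (m+1) (Fin.cons c p'.1 : Fin (m+1) → Col V k) p'.2 q}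
        have h2 : 0 ≤ g' * (K^m * K') := by positivity
        linarith
      · rw [if_neg hc, zero_mul, zero_add]
        simp only [hBad, Set.mem_ofPred_eq, not_lt] at hc
        set Yc : Finset V := univ.filter
          (fun y => y ∉ W ∧ ∃ x ∈ A, G.Adj x y ∧ c y x = 0) with hYc
        have hYcard : 4 * a ≤ Yc.card := by
          have hset : (Yc : Set V) = {y : V | y ∉ W ∧ ∃ x ∈ A, G.Adj x y ∧ c y x = 0} := by
            ext y
            simp [Yc]
          rw [← Set.ncard_coe_finset, hset]
          exact hc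
        obtain ⟨Y, hYsub, hYcard'⟩ := Finset.exists_subset_card_eq (s := Yc) (n := 2*b) (by omega)
        have hYW : ∀ y ∈ Y, y ∉ W := by
          intro y hy
          have := hYsub hy
          simp only [hYc, mem_filter, mem_univ, true_and] at this
          exact this.1
        have hv' := hv.next hμ hYW
        have hIcard : (Y.image μ).card = 2 * b := by
          rw [Finset.card_image_of_injective _ hμ.injective, hYcard']
        have hW' : (W ∪ Y ∪ Y.image μ).card ≤ 4 * (Y.image μ).card := by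
          have h1 := Finset.card_union_le (W ∪ Y) (Y.image μ)
          have h2 := Finset.card_union_le W Y
          omega
        have hih := ih B (Y.image μ) (W ∪ Y ∪ Y.image μ) hv' (by omega) (by omega) (by omega) hW'
          (by rw [hIcard, ← hT, pow_succ]; ring)
        rw [hIcard] at hih
        refine le_trans ?_ hih
        have hsub : {p' : (Fin m → Col V k) × Col V k' | ¬ ∃ q, Conn G μ A B W (m+1) q ∧
            Opn2 (m+1) (Fin.cons c p'.1 : Fin (m+1) → Col V k) p'.2 q} ⊆
            {p : (Fin m → Col V k) × Col V k' |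
              ¬ ∃ q, Conn G μ B (Y.image μ) (W ∪ Y ∪ Y.image μ) m q ∧ Opn2 m p.1 p.2 q} := by
          intro p' hp'
          simp only [Set.mem_ofPred_eq] at hp' ⊢
          rintro ⟨q', hq', ho'⟩
          apply hp'
          obtain ⟨y, hy, hyq⟩ := Finset.mem_image.1 hq'.finish
          have hyc := hYsub hy
          simp only [hYc, mem_filter, mem_univ, true_and] at hyc
          obtain ⟨-, x, hx, hxy, hcxy⟩ := hyc
          refine ⟨_, hq'.extend hμ hv hYW hx hy hxy hyq.symm, ?_⟩
          simp only [Opn2, Fin.cons_zero, Fin.tail_cons]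
          refine ⟨by simpa using hcxy, ?_⟩
          refine Opn2_congr m p'.1 p'.2 ?_ ho'
          intro j hj
          have h1 : 2*m+3-j ≠ 0 := by omega
          have h2 : 2*m+3-j ≠ 1 := by omega
          have h3 : 2*m+3-(2*m+3-j) = j := by omega
          simp only [h1, h2, h3, if_false]
        exact_mod_cast Set.ncard_le_ncard hsub
    have hsum : (Set.ncard {p : (Fin (m+1) → Col V k) × Col V k' |
        ¬ ∃ q, Conn G μ A B W (m+1) q ∧ Opn2 (m+1) p.1 p.2 q} : ℝ) ≤
        ∑ c : Col V k, ((if c ∈ Bad then 1 else 0) * (K^m * K') + g' * (K^m * K')) := by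
      rw [ncard_cons2]
      push_cast
      exact Finset.sum_le_sum (fun c _ => hterm c)
    rw [Finset.sum_add_distrib, ← Finset.sum_mul, Finset.sum_const, Finset.card_univ,
      nsmul_eq_mul] at hsum
    have hbadcard : (∑ c : Col V k, (if c ∈ Bad then (1:ℝ) else 0)) = (Bad.ncard : ℝ) := by
      have := ncard_eq_sum_ite (fun c : Col V k => c ∈ Bad)
      simp only [Set.ofPred_mem_eq] at this
      rw [this]
      push_cast
      rfl
    rw [hbadcard] at hsum
    have hpow : (0:ℝ) < 2^(4*a) := by positivity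
    have hbad2 : (Bad.ncard : ℝ) ≤ (1/2)^(4*a) * K := by
      have : ((1:ℝ)/2)^(4*a) = 1 / 2^(4*a) := by
        rw [div_pow, one_pow]
      rw [this, div_mul_eq_mul_div, one_mul, le_div_iff₀ hpow]
      exact hg
    have hKm : (0:ℝ) ≤ K^m * K' := by positivity
    have ht : ((1:ℝ)/2)^(4*(2*b)) = ((1/2)^(4*b))^2 := by
      rw [← pow_mul]; congr 1; ring
    have ht2 : ((1:ℝ)/2)^(4*b) ≤ 1/2 := by
      calc ((1:ℝ)/2)^(4*b) ≤ (1/2)^1 := by
            apply pow_le_pow_of_le_one (by norm_num) (by norm_num) (by omega)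
        _ = 1/2 := by norm_num
    have ht0 : (0:ℝ) ≤ (1/2)^(4*b) := by positivity
    have hfin : (1/2)^(4*a) + g' ≤ 1/4 + (1/2)^(4*a) + 2 * (1/2)^(4*b) := by
      rw [hg', ht]
      nlinarith
    calc (Set.ncard {p : (Fin (m+1) → Col V k) × Col V k' |
        ¬ ∃ q, Conn G μ A B W (m+1) q ∧ Opn2 (m+1) p.1 p.2 q} : ℝ)
        ≤ (Bad.ncard : ℝ) * (K^m * K') + K * (g' * (K^m * K')) := hsum
      _ ≤ ((1/2)^(4*a) * K) * (K^m * K') + K * (g' * (K^m * K')) := by
          gcongr
      _ = ((1/2)^(4*a) + g') * (K^(m+1) * K') := by ring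
      _ ≤ (1/4 + (1/2)^(4*a) + 2 * (1/2)^(4*b)) * (K^(m+1) * K') := by
          gcongr

end Vale.Agent.P308
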