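import Vale.Agent.P308.Expander
import Vale.Agent.P308.LP.Explore2
import Vale.Agent.P308.LP.Augment2

namespace Vale.Agent.P308

open Finset

variable {V : Type*} [Fintype V] [DecidableEq V]

/-- the holes of a subgraph as a finite set, with two disjoint subsets of prescribed size -/
theorem exists_hole_sets {G : SimpleGraph V} (M : G.Subgraph) (h s : ℕ) (hs : s ≤ h)
    (hholes : (M.verts)ᶜ.ncard = 2*h) :
    ∃ H A B : Finset V, (∀ x, x ∈ H ↔ x ∉ M.verts) ∧ H.card = 2*h ∧ A ⊆ H ∧ B ⊆ H ∧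
      Disjoint A B ∧ A.card = s ∧ B.card = s := by
  classical
  set H : Finset V := Finset.univ.filter (fun x => x ∉ M.verts) with hH
  have hmem : ∀ x, x ∈ H ↔ x ∉ M.verts := by
    intro x
    simp [hH]
  have hHs : (M.verts)ᶜ = ↑H := by
    ext x
    simp [hH]
  have hcard : H.card = 2*h := by
    rw [← Set.ncard_coe_finset, ← hHs, hholes]
  obtain ⟨A, hA, hAc⟩ := Finset.exists_subset_card_eq (s := H) (n := s) (by omega)
  have hdiff : (H \ A).card = 2*h - s := by
    rw [Finset.card_sdiff_of_subset hA, hcard, hAc]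
  obtain ⟨B, hB, hBc⟩ := Finset.exists_subset_card_eq (s := H \ A) (n := s) (by omega)
  refine ⟨H, A, B, hmem, hcard, hA, hB.trans Finset.sdiff_subset, ?_, hAc, hBc⟩
  exact Finset.disjoint_of_subset_right hB Finset.disjoint_sdiff

/-- few holes: `2^j ≤ h < 2^(j+1)`, `j ≤ T`; exploration from two disjoint sets of `2^j` holes -/
theorem many_augH (G : SimpleGraph V) [DecidableRel G.Adj] (k k' δ T : ℕ) (hk : 0 < k)
    (hk' : 0 < k')
    (hδ : 128 * k ≤ δ) (hmin : ∀ x, δ ≤ G.degree x)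
    (hgrow : ∀ L Z : Finset V, 2 * L.card ≤ 2^T → Z.card ≤ 28 * L.card →
      4 * (G.interedges L Z).card ≤ 3 * δ * L.card)
    (hjoin : ∀ A B : Finset V, 2^T ≤ 2 * A.card → 2^T ≤ B.card →
      2 * k' ≤ (G.interedges A B).card)
    (M : G.Subgraph) (hM : M.IsMatching) (j h : ℕ) (hj : j ≤ T) (h1 : 2^j ≤ h) (h2 : h < 2^(j+1))
    (hholes : (M.verts)ᶜ.ncard = 2*h) :
    k^(T-j) * k' ≤ 2 * Set.ncard {q : Fin (2*(T-j)+2) → V | AugH G M (T-j) (unf (T-j) q)} := by
  have : NeZero k := ⟨by omega⟩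
  have : NeZero k' := ⟨by omega⟩
  have hμ := mate_involutive hM
  obtain ⟨H, A, B, hmem, hHc, hA, hB, hdisj, hAc, hBc⟩ := exists_hole_sets M h (2^j) h1 hholes
  have hcov : ∀ y, y ∉ H → ∃ x, M.Adj y x := by
    intro y hy
    have hy' : y ∈ M.verts := by
      by_contra hc
      exact hy ((hmem y).2 hc)
    obtain ⟨x, hx, -⟩ := hM hy'
    exact ⟨x, hx⟩
  have hv : Valid (mate M) A B H := by
    refine ⟨hA, hB, hdisj, ?_⟩
    intro y hy
    have hadj := mate_adj (hcov y hy)
    refine ⟨?_, (M.adj_sub hadj).ne'⟩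
    intro hc
    exact (hmem _).1 hc (M.edge_vert hadj.symm)
  have hpj : 1 ≤ 2^j := Nat.one_le_two_pow
  set m : ℕ := T - j with hm
  have hex := explore2 G (mate M) hμ k k' δ T hδ hmin hgrow hjoin m A B H hv
    (by rw [hAc]; exact hpj) (by rw [hAc, hBc]) (by rw [hAc, hBc]; omega)
    (by rw [hHc, hBc]; rw [pow_succ] at h2; omega)
    (by rw [hBc, ← pow_add, hm]; congr 1; omega)
  rw [hAc, hBc] at hex
  set K : ℕ := Fintype.card (Col V k) with hK
  set K' : ℕ := Fintype.card (Col V k') with hK'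
  have hKpos : 0 < K := Fintype.card_pos
  have hKpos' : 0 < K' := Fintype.card_pos
  set Fail : Set ((Fin m → Col V k) × Col V k') :=
    {p | ¬ ∃ q, Conn G (mate M) A B H m q ∧ Opn2 m p.1 p.2 q} with hFail
  set Succ : Set ((Fin m → Col V k) × Col V k') :=
    {p | ∃ q : Fin (2*m+2) → V, AugH G M m (unf m q) ∧ Opn2 m p.1 p.2 (unf m q)} with hSucc
  have hfm := first_moment2 k k' m (AugH G M m)
  have hcompl : Failᶜ ⊆ Succ := by
    intro p hp
    simp only [hFail, Set.mem_compl_iff, Set.mem_ofPred_eq, not_not] at hp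
    obtain ⟨q, hq, ho⟩ := hp
    refine ⟨fun i => q i, ⟨?_, ?_, ⟨rfl, rfl, ?_, ?_, ?_⟩⟩, ?_⟩
    · rw [unf_restrict m q (by omega)]
      exact (hmem _).1 (hA hq.start)
    · rw [unf_restrict m q (by omega)]
      exact (hmem _).1 (hB hq.finish)
    · intro i j hi hj hij
      rw [unf_restrict m q hi, unf_restrict m q hj] at hij
      exact hq.inj i j hi hj hij
    · intro i hi
      rw [unf_restrict m q (by omega), unf_restrict m q (by omega)]
      exact hq.adj i hi
    · intro i hi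
      rw [unf_restrict m q (by omega), unf_restrict m q (by omega), ← hq.mat i hi]
      exact mate_adj (hcov _ (hq.avoid _ (by omega) (by omega)))
    · refine Opn2_congr m p.1 p.2 ?_ ho
      intro j hj
      rw [unf_restrict m q hj]
  have htot : Fail.ncard + Failᶜ.ncard = K^m * K' := by
    rw [Set.ncard_add_ncard_compl, Nat.card_eq_fintype_card, Fintype.card_prod, Fintype.card_fun,
      Fintype.card_fin]
  have hle : Failᶜ.ncard ≤ Succ.ncard := Set.ncard_le_ncard hcompl
  have hsmall : ((1:ℝ)/2)^(4*2^j) ≤ 1/16 := by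
    calc ((1:ℝ)/2)^(4*2^j) ≤ ((1:ℝ)/2)^4 :=
          pow_le_pow_of_le_one (by norm_num) (by norm_num) (by omega)
      _ = 1/16 := by norm_num
  have hhalf : (K:ℝ)^m * (K':ℝ) ≤ 2 * (Succ.ncard : ℝ) := by
    have e1 : (Fail.ncard : ℝ) + (Failᶜ.ncard : ℝ) = (K:ℝ)^m * (K':ℝ) := by exact_mod_cast htot
    have e2 : (Failᶜ.ncard : ℝ) ≤ (Succ.ncard : ℝ) := by exact_mod_cast hle
    have e3 : (0:ℝ) ≤ (K:ℝ)^m * (K':ℝ) := by positivity
    have e4 : (Fail.ncard : ℝ) ≤ (1/2) * ((K:ℝ)^m * (K':ℝ)) := by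
      refine hex.trans ?_
      apply mul_le_mul_of_nonneg_right _ e3
      linarith
    linarith
  have hhalf' : K^m * K' ≤ 2 * Succ.ncard := by exact_mod_cast hhalf
  have hKT : 0 < K^m * K' := by positivity
  have : K^m * K' * (k^m * k') ≤
      K^m * K' * (2 * Set.ncard {q : Fin (2*m+2) → V | AugH G M m (unf m q)}) := by
    calc K^m * K' * (k^m * k') ≤ (2 * Succ.ncard) * (k^m * k') := Nat.mul_le_mul_right _ hhalf'
      _ = 2 * (Succ.ncard * (k^m * k')) := by ring
      _ ≤ 2 * (Set.ncard {q : Fin (2*m+2) → V | AugH G M m (unf m q)} * (K^m * K')) :=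
          Nat.mul_le_mul_left _ hfm
      _ = _ := by ring
  exact Nat.le_of_mul_le_mul_left this hKT

/-- many holes: `2^T ≤ h`; edges between two disjoint sets of `2^T` holes -/
theorem many_augH_zero (G : SimpleGraph V) [DecidableRel G.Adj] (k' T : ℕ)
    (hjoin : ∀ A B : Finset V, 2^T ≤ 2 * A.card → 2^T ≤ B.card →
      2 * k' ≤ (G.interedges A B).card)
    (M : G.Subgraph) (h : ℕ) (h1 : 2^T ≤ h) (hholes : (M.verts)ᶜ.ncard = 2*h) :
    2 * k' ≤ Set.ncard {q : Fin (2*0+2) → V | AugH G M 0 (unf 0 q)} := by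
  obtain ⟨H, A, B, hmem, hHc, hA, hB, hdisj, hAc, hBc⟩ := exists_hole_sets M h (2^T) h1 hholes
  refine (hjoin A B (by omega) (by omega)).trans ?_
  rw [← Set.ncard_coe_finset]
  apply Set.ncard_le_ncard_of_injOn
    (fun e : V × V => (fun i : Fin (2*0+2) => (fun j : ℕ => if j = 0 then e.1 else e.2) i))
  · intro e he
    have he' : e ∈ G.interedges A B := he
    rw [SimpleGraph.mem_interedges_iff] at he'
    obtain ⟨ha, hb, hab⟩ := he'
    show AugH G M 0 (unf 0 _)
    have e0 : unf 0 (fun i : Fin (2*0+2) => (fun j : ℕ => if j = 0 then e.1 else e.2) i) 0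
        = e.1 :=
      (unf_restrict 0 (fun j : ℕ => if j = 0 then e.1 else e.2) (j := 0) (by omega)).trans
        (if_pos rfl)
    have e1 : unf 0 (fun i : Fin (2*0+2) => (fun j : ℕ => if j = 0 then e.1 else e.2) i) 1
        = e.2 :=
      (unf_restrict 0 (fun j : ℕ => if j = 0 then e.1 else e.2) (j := 1) (by omega)).trans
        (if_neg one_ne_zero)
    refine ⟨?_, ?_, ⟨rfl, rfl, ?_, ?_, ?_⟩⟩
    · rw [e0]
      exact (hmem _).1 (hA ha)
    · show unf 0 _ 1 ∉ M.verts
      rw [e1]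
      exact (hmem _).1 (hB hb)
    · intro i j hi hj hij
      have hne : e.1 ≠ e.2 := G.ne_of_adj hab
      have hi' : i = 0 ∨ i = 1 := by omega
      have hj' : j = 0 ∨ j = 1 := by omega
      rcases hi' with rfl | rfl <;> rcases hj' with rfl | rfl
      · rfl
      · rw [e0, e1] at hij
        exact absurd hij hne
      · rw [e0, e1] at hij
        exact absurd hij.symm hne
      · rfl
    · intro i hi
      have hi0 : i = 0 := by omega
      subst hi0
      show G.Adj (unf 0 _ 0) (unf 0 _ 1)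
      rw [e0, e1]
      exact hab
    · intro i hi
      omega
  · intro e _ e' _ hee
    have q0 := congrFun hee ⟨0, by omega⟩
    have q1 := congrFun hee ⟨1, by omega⟩
    simp only [if_true] at q0
    simp only [one_ne_zero, if_false] at q1
    exact Prod.ext q0 q1

/-- every matching with `2h ≥ 2` holes has many augmenting sequences with `T - log₂ h` matching
edges -/
theorem forward (G : SimpleGraph V) [DecidableRel G.Adj] (k k' δ T : ℕ) (hk : 0 < k)
    (hk' : 0 < k')
    (hδ : 128 * k ≤ δ) (hmin : ∀ x, δ ≤ G.degree x)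
    (hgrow : ∀ L Z : Finset V, 2 * L.card ≤ 2^T → Z.card ≤ 28 * L.card →
      4 * (G.interedges L Z).card ≤ 3 * δ * L.card)
    (hjoin : ∀ A B : Finset V, 2^T ≤ 2 * A.card → 2^T ≤ B.card →
      2 * k' ≤ (G.interedges A B).card)
    (M : G.Subgraph) (hM : M.IsMatching) (h : ℕ) (hh : 1 ≤ h)
    (hholes : (M.verts)ᶜ.ncard = 2*h) :
    k^(T - Nat.log 2 h) * k' ≤
      2 * Set.ncard {q : Fin (2*(T - Nat.log 2 h)+2) → V |
        AugH G M (T - Nat.log 2 h) (unf (T - Nat.log 2 h) q)} := by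
  rcases Nat.lt_or_ge (Nat.log 2 h) T with hlt | hge
  · exact many_augH G k k' δ T hk hk' hδ hmin hgrow hjoin M hM (Nat.log 2 h) h hlt.le
      (Nat.pow_log_le_self 2 (by omega)) (Nat.lt_pow_succ_log_self (by norm_num) h) hholes
  · have h0 : T - Nat.log 2 h = 0 := by omega
    have hT : 2^T ≤ h :=
      le_trans (Nat.pow_le_pow_right (by norm_num) hge) (Nat.pow_log_le_self 2 (by omega))
    rw [h0]
    have := many_augH_zero G k' T hjoin M h hT hholes
    simp only [pow_zero, one_mul]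
    omega

end Vale.Agent.P308
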