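import Vale.Agent.P308.PathCount
import Vale.Agent.P308.LP.Augment2

namespace Vale.Agent.P308

open SimpleGraph

variable {V : Type*} {G : SimpleGraph V}

/-- If every matching with `2(h+1)` holes has at least `a` augmenting sequences with exactly `t`
matching edges, and all degrees are at most `Δ`, then
`#(matchings with 2(h+1) holes) * a ≤ |V| * Δ^t * #(matchings with 2h holes)`. -/
theorem ratio_step [Fintype V] [DecidableEq V] [DecidableRel G.Adj] (t a Δ h : ℕ)
    (hdeg : ∀ x, G.degree x ≤ Δ)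
    (hmany : ∀ M : G.Subgraph, M.IsMatching → (M.verts)ᶜ.ncard = 2*(h+1) →
      a ≤ Set.ncard {q : Fin (2*t+2) → V | AugH G M t (unf t q)}) :
    Set.ncard {M : G.Subgraph | M.IsMatching ∧ (M.verts)ᶜ.ncard = 2*(h+1)} * a ≤
      Fintype.card V * Δ^t * Set.ncard {M : G.Subgraph | M.IsMatching ∧ (M.verts)ᶜ.ncard = 2*h} := by
  classical
  -- local numbering of the neighbours
  have hemb : ∀ x : V, Nonempty (G.neighborSet x ↪ Fin Δ) := by
    intro x
    apply Function.Embedding.nonempty_of_card_le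
    rw [Fintype.card_fin, SimpleGraph.card_neighborSet_eq_degree]
    exact hdeg x
  let e : ∀ x : V, G.neighborSet x ↪ Fin Δ := fun x => (hemb x).some
  have he : ∀ (x x' y y' : V) (h : G.Adj x y) (h' : G.Adj x' y'), x = x' →
      e x ⟨y, h⟩ = e x' ⟨y', h'⟩ → y = y' := by
    intro x x' y y' h h' hx hxy
    subst hx
    have := (e x).injective hxy
    exact congrArg Subtype.val this
  let X := Σ M : {M : G.Subgraph | M.IsMatching ∧ (M.verts)ᶜ.ncard = 2*(h+1)},
    {q : Fin (2*t+2) → V // AugH G M.1 t (unf t q)}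
  let Φ : X → {M : G.Subgraph | M.IsMatching ∧ (M.verts)ᶜ.ncard = 2*h} × V × (Fin t → Fin Δ) :=
    fun x => (⟨augment2 x.1.1 t (unf t x.2.1) x.2.2.2.2.adj,
        x.2.2.augment2_isMatching x.1.2.1, x.2.2.holes_augment2 x.1.2.2⟩,
      unf t x.2.1 0,
      fun j => e (unf t x.2.1 (2*j+1))
        ⟨unf t x.2.1 (2*j+2), x.1.1.adj_sub (x.2.2.2.2.mat j j.2)⟩)
  have hinj : Function.Injective Φ := by
    rintro ⟨M1, q1, hp1⟩ ⟨M2, q2, hp2⟩ h
    simp only [Φ, Prod.mk.injEq, Subtype.mk.injEq] at h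
    obtain ⟨h3, h0, h2⟩ := h
    have hPM := hp2.augment2_isMatching M2.2.1
    have hA1 : ∀ i, i ≤ t → (augment2 M2.1 t (unf t q2) hp2.2.2.adj).Adj
        (unf t q1 (2*i)) (unf t q1 (2*i+1)) := by
      intro i hi
      rw [← h3]
      exact Or.inr ⟨i, hi, Or.inl ⟨rfl, rfl⟩⟩
    have hA2 : ∀ i, i ≤ t → (augment2 M2.1 t (unf t q2) hp2.2.2.adj).Adj
        (unf t q2 (2*i)) (unf t q2 (2*i+1)) := by
      intro i hi
      exact Or.inr ⟨i, hi, Or.inl ⟨rfl, rfl⟩⟩
    have hpair : ∀ i, i ≤ t → unf t q1 (2*i) = unf t q2 (2*i) ∧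
        unf t q1 (2*i+1) = unf t q2 (2*i+1) := by
      intro i
      induction i with
      | zero =>
        intro _
        refine ⟨h0, ?_⟩
        have a1 := hA1 0 (Nat.zero_le _)
        have a2 := hA2 0 (Nat.zero_le _)
        simp only [Nat.mul_zero] at a1 a2
        rw [h0] at a1
        exact hPM.eq_of_adj_left a1 a2
      | succ i ih =>
        intro hi
        obtain ⟨-, ih2⟩ := ih (by omega)
        have hc := congrFun h2 ⟨i, by omega⟩
        have e1 : unf t q1 (2*i+2) = unf t q2 (2*i+2) := he _ _ _ _ _ _ ih2 hc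
        have e1' : unf t q1 (2*(i+1)) = unf t q2 (2*(i+1)) := e1
        refine ⟨e1', ?_⟩
        have a1 := hA1 (i+1) hi
        have a2 := hA2 (i+1) hi
        rw [e1'] at a1
        exact hPM.eq_of_adj_left a1 a2
    have hpq : ∀ j, j ≤ 2*t+1 → unf t q1 j = unf t q2 j := by
      intro j hj
      rcases Nat.mod_two_eq_zero_or_one j with hpar | hpar
      · obtain ⟨i, rfl⟩ : ∃ i, j = 2*i := ⟨j/2, by omega⟩
        exact (hpair i (by omega)).1
      · obtain ⟨i, rfl⟩ : ∃ i, j = 2*i+1 := ⟨j/2, by omega⟩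
        exact (hpair i (by omega)).2
    have hqq : q1 = q2 := by
      funext j
      rw [← unf_apply t q1 j, ← unf_apply t q2 j]
      exact hpq j (by have := j.2; omega)
    have hMM : M1 = M2 := by
      apply Subtype.ext
      apply Subgraph.ext
      · ext w
        rw [hp1.mem_verts_iff w, hp2.mem_verts_iff w, h3, hpq 0 (by omega), hpq _ le_rfl]
      · ext a b
        rw [hp1.adj_iff M1.2.1, hp2.adj_iff M2.2.1, h3]
        generalize augment2 M2.1 t (unf t q2) hp2.2.2.adj = A
        constructor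
        · intro h
          exact Rec_imp hpq h
        · intro h
          exact Rec_imp (fun j hj => (hpq j hj).symm) h
    exact Sigma.subtype_ext hMM hqq
  have hcard := Nat.card_le_card_of_injective Φ hinj
  have : Fintype {M : G.Subgraph | M.IsMatching ∧ (M.verts)ᶜ.ncard = 2*(h+1)} := Fintype.ofFinite _
  have hX : Nat.card {M : G.Subgraph | M.IsMatching ∧ (M.verts)ᶜ.ncard = 2*(h+1)} * a ≤
      Nat.card X := by
    rw [Nat.card_sigma, Nat.card_eq_fintype_card, ← Finset.card_univ, ← smul_eq_mul,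
      ← Finset.sum_const]
    apply Finset.sum_le_sum
    intro M _
    have := hmany M.1 M.2.1 M.2.2
    rw [← Nat.card_coe_set_eq] at this
    exact this
  rw [Nat.card_prod, Nat.card_prod, Nat.card_fun] at hcard
  simp only [Nat.card_eq_fintype_card, Fintype.card_fin] at hcard
  rw [← Nat.card_coe_set_eq, ← Nat.card_coe_set_eq]
  calc Nat.card {M : G.Subgraph | M.IsMatching ∧ (M.verts)ᶜ.ncard = 2*(h+1)} * a ≤ Nat.card X := hX
    _ ≤ _ := by
      simp only [Nat.card_eq_fintype_card] at hcard ⊢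
      calc _ ≤ _ := hcard
        _ = _ := by ring

end Vale.Agent.P308
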