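import Vale.Agent.P308.Spectral
import Vale.Agent.P308.LP.Forward
import Vale.Agent.P308.LP.PathCount2
import Vale.Agent.P308.LP.Chain

namespace Vale.Agent.P308

open Finset

variable {V : Type*} [Fintype V] [DecidableEq V]

/-- large sets span many edges -/
theorem spectral_join2 (G : SimpleGraph V) [DecidableRel G.Adj] (d : ℕ)
    (hreg : G.IsRegularOfDegree d)
    (hspec : ∀ f : V → ℝ, ∑ v, f v = 0 →
      ∑ v, ((G.adjMatrix ℝ).mulVec f v)^2 ≤ ((d:ℝ)/256)^2 * ∑ v, (f v)^2)
    (A B : Finset V) (hA : Fintype.card V ≤ 128 * A.card) (hB : Fintype.card V ≤ 128 * B.card) :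
    2 * (d * Fintype.card V / 2^16) ≤ (G.interedges A B).card := by
  rcases Nat.eq_zero_or_pos (Fintype.card V) with hN0 | hN0
  · rw [hN0]; simp
  have hmix := mixing G d ((d:ℝ)/256) (by positivity) hreg hspec A B
  set N : ℝ := (Fintype.card V : ℝ) with hNdef
  set a : ℝ := (A.card : ℝ) with ha
  set b : ℝ := (B.card : ℝ) with hb
  set e : ℝ := ((G.interedges A B).card : ℝ) with he
  have hNpos : 0 < N := by rw [hNdef]; exact_mod_cast hN0
  have hAr : N ≤ 128 * a := by rw [hNdef, ha]; exact_mod_cast hA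
  have hBr : N ≤ 128 * b := by rw [hNdef, hb]; exact_mod_cast hB
  have ha0 : 0 < a := by linarith
  have hb0 : 0 < b := by linarith
  have hd0 : (0:ℝ) ≤ d := by positivity
  set r : ℝ := Real.sqrt (a * b) with hr
  have hr2 : r * r = a * b := Real.mul_self_sqrt (by positivity)
  have hrN : N / 128 ≤ r := by
    rw [hr]
    apply Real.le_sqrt_of_sq_le
    have h1 : N / 128 ≤ a := by linarith
    have h2 : N / 128 ≤ b := by linarith
    have h3 : 0 ≤ N / 128 := by positivity
    calc (N / 128)^2 = (N / 128) * (N / 128) := by ring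
      _ ≤ a * b := mul_le_mul h1 h2 h3 ha0.le
  have hr0 : 0 < r := by
    have : 0 < N / 128 := by positivity
    linarith
  have h1 : d * a * b / N - (d:ℝ)/256 * r ≤ e := by
    have := (abs_le.1 hmix).1
    linarith
  have h2 : d * r / 128 ≤ d * a * b / N := by
    rw [le_div_iff₀ hNpos]
    have h3 : r * N ≤ 128 * (r * r) := by nlinarith
    calc d * r / 128 * N = d * (r * N) / 128 := by ring
      _ ≤ d * (128 * (r * r)) / 128 := by
        apply div_le_div_of_nonneg_right _ (by norm_num)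
        exact mul_le_mul_of_nonneg_left h3 hd0
      _ = d * a * b := by rw [hr2]; ring
  have h4 : (d:ℝ) * N / 2^15 ≤ e := by
    have h6 : (d:ℝ) * (N / 128) ≤ d * r := mul_le_mul_of_nonneg_left hrN hd0
    have h7 : (d:ℝ) * N / 2^15 = d * (N / 128) / 256 := by norm_num; ring
    rw [h7]
    linarith
  have h7 : ((d * Fintype.card V / 2^16 : ℕ) : ℝ) ≤ (d:ℝ) * N / 2^16 := by
    have := Nat.cast_div_le (α := ℝ) (m := d * Fintype.card V) (n := 2^16)
    rw [hNdef]
    push_cast at this ⊢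
    norm_num at this ⊢
    exact this
  have h8 : ((2 * (d * Fintype.card V / 2^16) : ℕ) : ℝ) ≤ ((G.interedges A B).card : ℝ) := by
    rw [Nat.cast_mul]
    have h9 : (d:ℝ) * N / 2^15 = 2 * ((d:ℝ) * N / 2^16) := by norm_num; ring
    have h10 : ((2:ℕ):ℝ) = 2 := by norm_num
    rw [h10]
    linarith
  exact_mod_cast h8

/-- one step of the chain -/
theorem step_ineq (G : SimpleGraph V) [DecidableRel G.Adj] (k k' δ Δ T : ℕ) (hk : 0 < k)
    (hk' : 0 < k')
    (hδ : 128 * k ≤ δ) (hmin : ∀ x, δ ≤ G.degree x) (hmax : ∀ x, G.degree x ≤ Δ)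
    (hgrow : ∀ L Z : Finset V, 2 * L.card ≤ 2^T → Z.card ≤ 28 * L.card →
      4 * (G.interedges L Z).card ≤ 3 * δ * L.card)
    (hjoin : ∀ A B : Finset V, 2^T ≤ 2 * A.card → 2^T ≤ B.card →
      2 * k' ≤ (G.interedges A B).card) (h : ℕ) :
    Set.ncard {M : G.Subgraph | M.IsMatching ∧ (M.verts)ᶜ.ncard = 2*(h+1)} *
        (k^(T - Nat.log 2 (h+1)) * k') ≤
      2 * (Fintype.card V * Δ^(T - Nat.log 2 (h+1)) *
        Set.ncard {M : G.Subgraph | M.IsMatching ∧ (M.verts)ᶜ.ncard = 2*h}) := by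
  set t := T - Nat.log 2 (h+1) with ht
  have hr := ratio_step (G := G) t ((k^t * k' + 1)/2) Δ h hmax (by
    intro M hM hholes
    have := forward G k k' δ T hk hk' hδ hmin hgrow hjoin M hM (h+1) (by omega) hholes
    rw [← ht] at this
    omega)
  have h2 : k^t * k' ≤ 2 * ((k^t * k' + 1)/2) := by omega
  calc Set.ncard {M : G.Subgraph | M.IsMatching ∧ (M.verts)ᶜ.ncard = 2*(h+1)} * (k^t * k')
      ≤ Set.ncard {M : G.Subgraph | M.IsMatching ∧ (M.verts)ᶜ.ncard = 2*(h+1)} *
        (2 * ((k^t * k' + 1)/2)) := Nat.mul_le_mul_left _ h2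
    _ = 2 * (Set.ncard {M : G.Subgraph | M.IsMatching ∧ (M.verts)ᶜ.ncard = 2*(h+1)} *
        ((k^t * k' + 1)/2)) := by ring
    _ ≤ _ := Nat.mul_le_mul_left _ hr

omit [DecidableEq V] in
/-- the empty matching -/
theorem one_le_ncard_empty (G : SimpleGraph V) (n : ℕ) (hN : Fintype.card V = 2*n) :
    1 ≤ Set.ncard {M : G.Subgraph | M.IsMatching ∧ (M.verts)ᶜ.ncard = 2*n} := by
  have hmem : (⊥ : G.Subgraph) ∈ {M : G.Subgraph | M.IsMatching ∧ (M.verts)ᶜ.ncard = 2*n} := by
    refine ⟨?_, ?_⟩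
    · intro v hv
      exact absurd hv (by simp)
    · simp only [SimpleGraph.Subgraph.verts_bot, Set.compl_empty, Set.ncard_univ,
        Nat.card_eq_fintype_card]
      exact hN
  exact (Set.ncard_pos (Set.toFinite _)).2 ⟨_, hmem⟩

omit [DecidableEq V] in
/-- matchings without holes are the perfect matchings -/
theorem setOf_zero_holes (G : SimpleGraph V) :
    {M : G.Subgraph | M.IsMatching ∧ (M.verts)ᶜ.ncard = 2*0} =
      {M : G.Subgraph | M.IsPerfectMatching} := by
  ext M
  simp only [Set.mem_ofPred_eq, SimpleGraph.Subgraph.IsPerfectMatching, Nat.mul_zero]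
  refine and_congr_right fun _ => ?_
  rw [Set.ncard_eq_zero (Set.toFinite _), Set.compl_empty_iff, SimpleGraph.Subgraph.IsSpanning,
    Set.eq_univ_iff_forall]

/-- Regular spectral expanders on `2n` vertices have at least `(d/2^20)^n` perfect matchings. -/
theorem spectral_count (G : SimpleGraph V) [DecidableRel G.Adj] (d : ℕ) (hd : 0 < d)
    (hreg : G.IsRegularOfDegree d)
    (hspec : ∀ f : V → ℝ, ∑ v, f v = 0 →
      ∑ v, ((G.adjMatrix ℝ).mulVec f v)^2 ≤ ((d:ℝ)/256)^2 * ∑ v, (f v)^2)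
    (n : ℕ) (hN2 : Fintype.card V = 2*n) :
    d^n ≤ 2^(20*n) * Set.ncard {M : G.Subgraph | M.IsPerfectMatching} := by
  rw [← setOf_zero_holes G]
  rcases isEmpty_or_nonempty V with hV | hV
  · have h0 : n = 0 := by
      have : Fintype.card V = 0 := Fintype.card_eq_zero
      omega
    subst h0
    have := one_le_ncard_empty G 0 hN2
    simpa using this
  obtain ⟨hd256, hdN⟩ := spectral_degree G d hd hreg hspec
  set N := Fintype.card V with hN
  set k := d / 256 with hk
  have hk1 : 1 ≤ k := by rw [hk]; omega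
  have hkd : 256 * k ≤ d := by rw [hk]; omega
  have hdk : d < 512 * k := by rw [hk]; omega
  set k' := d * N / 2^16 with hk'
  have hdN16 : 2^16 ≤ d * N := by
    calc 2^16 = 256 * 256 := by norm_num
      _ ≤ d * N := Nat.mul_le_mul hd256 (by omega)
  have hk'1 : 1 ≤ k' := by
    rw [hk']
    exact (Nat.one_le_div_iff (by norm_num)).2 hdN16
  have hk'2 : d * N < 2^16 * (k' + 1) := by
    rw [hk']
    exact Nat.lt_mul_div_succ _ (by norm_num)
  have hex : ∃ T : ℕ, N ≤ 64 * 2^T := ⟨N, by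
    have := (Nat.lt_two_pow_self (n := N)).le
    omega⟩
  classical
  set T := Nat.find hex with hT
  have hT1 : N ≤ 64 * 2^T := Nat.find_spec hex
  have hTpos : 1 ≤ T := by
    by_contra h
    have h0 : T = 0 := by omega
    rw [h0] at hT1
    omega
  have hT2 : 64 * 2^(T-1) < N := by
    have := Nat.find_min hex (m := T - 1) (by omega)
    omega
  have hpow : 2^T = 2 * 2^(T-1) := by
    obtain ⟨t, ht⟩ : ∃ t, T = t + 1 := ⟨T - 1, by omega⟩
    rw [ht, Nat.add_sub_cancel, pow_succ]; ring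
  refine chain (fun h => Set.ncard {M : G.Subgraph | M.IsMatching ∧ (M.verts)ᶜ.ncard = 2*h})
    k k' N d T n (by omega) (by omega) ?_ (one_le_ncard_empty G n hN2) hdk.le ?_ ?_
  · intro h _
    exact step_ineq G k k' d d T (by omega) (by omega) (by omega)
      (fun x => (hreg x).ge) (fun x => (hreg x).le)
      (fun L Z h1 h2 => spectral_grow G d hreg hspec L Z (by rw [← hN]; omega) h2)
      (fun A B h1 h2 => spectral_join2 G d hreg hspec A B
        (by rw [← hN]; omega) (by rw [← hN]; omega)) h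
  · have : 2^16 * (k' + 1) ≤ 2^17 * k' := by omega
    calc 2 * N * d = 2 * (d * N) := by ring
      _ ≤ 2 * (2^17 * k') := by omega
      _ = 2^18 * k' := by ring
  · have : 2^(T+1) = 4 * 2^(T-1) := by rw [pow_succ, hpow]; ring
    omega

end Vale.Agent.P308
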